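import Vale.Agent.P267.Stmt
import Vale.Agent.P267.BM
import Vale.Agent.P267S.Main
import Vale.Agent.P267M.Model
import Vale.Agent.P267C.Glue

open scoped Manifold ContDiff
open Vale.Agent.P267

theorem Vale.Agent.P267M.level_one
    (X : Type) [TopologicalSpace X] [ChartedSpace C2 X] [IsManifold 𝓘(ℂ, C2) ω X] [T2Space X]
    [CompactSpace X] [ConnectedSpace X]
    (M : Type) [TopologicalSpace M] [ChartedSpace C2 M] [IsManifold 𝓘(ℂ, C2) ω M] [T2Space M]
    [ConnectedSpace M]
    (π : M → X) (g : M ≃ₜ M) (t : M → ℝ) (h : IsCover π g t) (hK : NoTwistedCanonical π g)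
    (n : ℕ) (S : Set M) (E : Fin n → M → M → ℂ) (hB : IsBasis π g S E) :
    ∃ C : Fin n → Set X, Function.Injective C ∧ ∀ i, IsRationalCurve (C i) := by
  rcases Nat.eq_zero_or_pos n with rfl | hn
  · exact ⟨Fin.elim0, fun i => i.elim0, fun i => i.elim0⟩
  obtain ⟨C, rfl, rfl, -, H, hF⟩ := Vale.Agent.P267M.model h hK hB
  obtain ⟨u, s, O⟩ := C.solver H hF hn
  have := Vale.Agent.P267M.sec_count h
  exact Vale.Agent.P267C.curves_down h (O.cv H fun k p => Vale.Agent.P267M.g_hol h k p)
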